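import Vale.Agent.P144U.Free.Half
import Vale.Agent.P144U.Cls.Main
import Vale.Agent.P144E.Lat.Dom

/-!
Universality on the lattice and in domains for the free and constant boundary conditions, for any
class of sets that can be dug.
-/

namespace Vale.Agent.P144Z

open Finset P144 UL

/-- The sets of the class `Raw` can be dug so that the boundary is of the class `Q`. -/
def GeoF (Raw : Finset Site → ℕ → Prop) (Q : Cls) (L : ℕ) : Prop :=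
  ∃ t N D J₁ : ℕ, 1 ≤ t ∧ 1 ≤ D ∧ ∀ (Λ : Finset Site) (r T : ℕ), Raw Λ r → D ≤ r → r ≤ T →
    (∀ v ∈ Λ, zd v 0 ≤ T) → ∃ P : Finset Site,
      (∀ p ∈ P, zd p 0 ≤ T + t ∧ ∃ v, v ∉ Λ ∧ zd v p ≤ t) ∧
      (∀ p ∈ P, ∀ p' ∈ P, p ≠ p' → r / D < zd p p') ∧ ∀ (M : ℕ) [NeZero M], 4 * (T + r) ≤ M →
        Rgh ((dig Λ P t).image (prj M)) N (r / D) ∧ ∀ (fr : Bool) (B : Gauge M) (ρ J : ℕ),
          Str (regOf M (dig Λ P t) fr).pw B ρ → ρ ≤ r / D → J₁ ≤ J → D * sc L J ≤ ρ →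
            Q M ((regOf M (dig Λ P t) fr).pw * B) J

/-- Universality for the sets of the class `Raw`, with `m` energies. -/
def LatOKF (Raw : Finset Site → ℕ → Prop) (q : Par) (Zσ Zε : ℝ) (m : ℕ) : Prop :=
  ∀ J lam β : ℝ, 0 < J → q.μ = β * lam → q.x = Real.exp (-(2 * β * J)) → ∀ n Λ₀ : ℕ, ∀ ε > 0,
    ∃ r₀ : ℕ, ∀ r ≥ r₀, ∀ (Λ : Finset Site) (b : Option Config) (x : Fin n → Site)
      (y : Fin m → Site) (j : Fin m → Fin 2), (b = none ∨ b = some fun _ => true) →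
      Raw Λ r → (∀ v ∈ Λ, zd v 0 ≤ Λ₀ * r) → Spins Λ r (Sum.elim x y) →
        |lcor (gibbs J lam q.V β b Λ) x y j -
          Zσ ^ n * Zε ^ m * lcor (gibbs J 0 (fun _ => 0) (Kc / J) b Λ) x y j| ≤
          ε * (r : ℝ) ^ (-((n : ℝ) / 8)) / (r : ℝ) ^ m

open ELat in
/-- Universality on the lattice. -/
theorem latF (hK : KStmtW) (hO : HolesW) (hS : SpStmt) {Raw : Finset Site → ℕ → Prop} {Cl : Cls}
    {q : Par} {Zσ Zε : ℝ} {L m : ℕ} (hL2 : 2 ≤ L) (hq : q.Ok) (hsm : q.Small 1)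
    (hU : UnivU Cl q Zσ Zε L m) (hU0 : UnivU Cl par0 1 1 L m) (hD : GeoF Raw Cl L) :
    LatOKF Raw q Zσ Zε m := by
  intro J lam β hJ hμ hx n Λ₀ ε hε
  obtain ⟨t, N, Q, JG, ht, hQ, hD⟩ := hD
  have k0 := crit_par0 L 1 1 zero_le_one zero_le_one
  have rq : Rel J lam β q := ⟨hq.pot, hq.range, hμ, hx⟩
  have r0 : Rel J 0 (Kc / J) par0 := ⟨U1.pot_zero, fun _ h => absurd rfl h,
    (mul_zero _).symm, by
      rw [mul_assoc, div_mul_cancel₀ _ hJ.ne']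
      exact U4.tc_eq⟩
  obtain ⟨H₀, Qh, hQh, hO⟩ := hO N ((Λ₀ + 1) * (2 * Q))
  obtain ⟨c, hc⟩ : ∃ c : ℕ, c = 2 * Q * (2 * Qh * (2 * 2 * ((Q + 17) * L))) := ⟨_, rfl⟩
  have c0 : 0 < c := by rw [hc]; positivity
  have cL : (1 : ℝ) ≤ c := by exact_mod_cast c0
  set z : ℝ := |Zσ ^ n * Zε ^ m| with hz
  have z0 : 0 ≤ z := abs_nonneg _
  obtain ⟨J₁, c₁⟩ := FrU.half hK hS hL2 hU ht hq.x_lo hq.x_hi hsm rq N n H₀
    (2 * (Λ₀ + 1) * c) ((4 * ((Λ₀ + 1) * (2 * Q)) + 1) ^ 2) (ε := ε / (c : ℝ) ^ (n + m) / (z + 1))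
    (by positivity)
  obtain ⟨J₀, c₀⟩ := FrU.half hK hS hL2 hU0 ht k0.ok.x_lo k0.ok.x_hi k0.small r0 N n H₀
    (2 * (Λ₀ + 1) * c) ((4 * ((Λ₀ + 1) * (2 * Q)) + 1) ^ 2) (ε := ε / (c : ℝ) ^ (n + m) / (z + 1))
    (by positivity)
  obtain ⟨s₀, hs₀⟩ : ∃ s₀, s₀ = (Q + 17) * sc L (max (max J₀ J₁) JG) := ⟨_, rfl⟩
  refine ⟨Q * (Qh * (2 * (s₀ + 1))) + 4 * t, fun r hr Λ b x y j hb hR hΛ hs => ?_⟩
  have f1 : Qh * (2 * (s₀ + 1)) ≤ r / Q :=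
    (Nat.le_div_iff_mul_le hQ).2 (by rw [mul_comm]; omega)
  have f2 : 2 * (s₀ + 1) ≤ r / Q / Qh := (Nat.le_div_iff_mul_le hQh).2 (by rw [mul_comm]; omega)
  have f3 : Qh ≤ r / Q := le_trans (Nat.le_mul_of_pos_right _ (by omega)) f1
  have f4 : Q ≤ r := (Nat.le_mul_of_pos_right Q (by omega : 0 < r / Q)).trans (Nat.mul_div_le r Q)
  have f5 : r / Q ≤ r := Nat.div_le_self _ _
  have f6 : r / Q / Qh ≤ r / Q := Nat.div_le_self _ _
  have g1 := le_mul_div hQ f4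
  have g2 := le_mul_div hQh f3
  have g3 := le_mul_div (Q := 2) (r := r / Q / Qh) (by norm_num) (by omega)
  obtain ⟨ρ, hρ⟩ : ∃ ρ, ρ = r / Q / Qh / 2 := ⟨_, rfl⟩
  rw [← hρ] at g3
  have hx' : ∀ i, x i ∈ Λ := fun i => hs.ins (Sum.inl i) _ (by simp [zd_self])
  have hy' : ∀ k, y k ∈ Λ ∧ y k + dir (j k) ∈ Λ := fun k =>
    ⟨hs.ins (Sum.inr k) _ (by simp [zd_self]),
      hs.ins (Sum.inr k) _ ((zd_add_dir _ _).trans (by omega))⟩
  have r0' : (0 : ℝ) < r := by exact_mod_cast (by omega : 0 < r)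
  by_cases ho : b = none ∧ Odd n
  · obtain ⟨rfl, hn⟩ := ho
    rw [lcor_odd hq.pot hn hx' hy', lcor_odd U1.pot_zero hn hx' hy', mul_zero, sub_zero,
      abs_zero]
    positivity
  obtain ⟨J', n1, n2, n3⟩ := Mn.exists_scale (c := Q + 17) (J := max (max J₀ J₁) JG) (M := ρ) hL2
    (by omega) (by omega)
  rw [show sc L (J' + 1) = L * sc L J' by unfold sc; ring, ← mul_assoc] at n3
  rw [add_mul] at n2
  have s9 := sc_ge (J := J') hL2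
  have e1 : (Λ₀ + 1) * r = Λ₀ * r + r := by ring
  have e4 : r ≤ c * sc L J' := by
    rw [hc]
    simp only [mul_assoc] at g1 g2 g3 n3 ⊢
    refine g1.trans (by gcongr; refine g2.trans (by gcongr; exact g3.trans (by gcongr)))
  have e5 : 2 * ((Λ₀ + 1) * r) ≤ 2 * (Λ₀ + 1) * c * sc L J' := by
    simp only [mul_assoc]
    gcongr
  have e6 : (Λ₀ + 1) * r ≤ (Λ₀ + 1) * (2 * Q) * (r / Q) := by
    rw [mul_assoc]
    gcongr
  have e7 : 2 * ((Λ₀ + 1) * r + t) ≤ 4 * ((Λ₀ + 1) * (2 * Q)) * (r / Q + 1) := by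
    rw [mul_assoc 4, mul_add_one ((Λ₀ + 1) * (2 * Q))]
    omega
  set T := (Λ₀ + 1) * r with hT
  have hΛ' : ∀ v ∈ Λ, zd v 0 ≤ T := fun v hv => (hΛ v hv).trans (by omega)
  have : NeZero (64 * (2 * T)) := ⟨by omega⟩
  set M := 64 * (2 * T) with hMd
  obtain ⟨P, p1, p0, sW⟩ := hD Λ r T hR f4 (by omega) hΛ'
  obtain ⟨sW, hB⟩ := sW M (by omega)
  obtain ⟨fr, H, hH', a, hs', rfl, h1, hcn, hfr⟩ : ∃ fr : Bool, ∃ H ≤ H₀, ∃ a,
      ∃ hs' : Fin H → Site, b = (if fr then none else some fun _ => true) ∧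
      Holes (dig Λ P t) (2 * T) ρ a hs' ∧ (fr = false → Cn M (dig Λ P t) a hs') ∧
      (fr = true → H = 0 ∧ Even n) := by
    obtain ⟨H, hH', a, hs', h1, hcn⟩ := hO (dig Λ P t) T (r / Q) M sW f3 (by omega) e6
      (fun v hv => hΛ' v (mem_dig.1 hv).1) (by omega)
    have h2 := holes_mono h1 (r' := ρ) (by omega)
    rcases hb with rfl | rfl
    · exact ⟨true, 0, Nat.zero_le _, a, Fin.elim0, rfl, ⟨h2.box, h2.a_le, fun i => i.elim0,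
        h2.a_out, fun i => i.elim0, fun i => i.elim0, fun i => i.elim0⟩, by simp,
        fun _ => ⟨rfl, Nat.not_odd_iff_even.1 fun h => ho ⟨rfl, h⟩⟩⟩
    · exact ⟨false, H, hH', a, hs', rfl, h2, fun _ => hcn, by simp⟩
  have hbd : ∀ B, Str (regOf M (dig Λ P t) fr).pw B (ρ - 1) →
      Cl M ((regOf M (dig Λ P t) fr).pw * B) J' := fun B h =>
    hB fr B (ρ - 1) J' h (by omega) (le_of_max_le_right n1) (by omega)
  have hsp := spins_dig (r' := ρ) hs (fun p hp => (p1 p hp).2) (by omega)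
  have p2 : ∀ p ∈ P, zd p 0 ≤ 2 * T := fun p hp => (p1 p hp).1.trans (by omega)
  have p3 : ∀ p ∈ P, ∀ p' ∈ P, p ≠ p' → ρ < zd p p' := fun p hp p' hp' e =>
    lt_of_le_of_lt (by omega) (p0 p hp p' hp' e)
  have p4 := B5a2.card_net (fun p hp => (p1 p hp).1) p0 e7
  have d₁ := c₁ J' (le_of_max_le_right (le_of_max_le_left n1)) M Λ P fr _ _ H x y j a hs' hH'
    (sW.mono (by omega)) hbd h1 hcn hsp hfr (by omega) (by omega) e5 rfl p2 p3 p4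
  have d₀ := c₀ J' (le_of_max_le_left (le_of_max_le_left n1)) M Λ P fr _ _ H x y j a hs' hH'
    (sW.mono (by omega)) hbd h1 hcn hsp hfr (by omega) (by omega) e5 rfl p2 p3 p4
  rw [one_pow, one_pow, one_mul, one_mul] at d₀
  change _ * |lcor (gibbs J 0 (fun _ => 0) _ _ _) _ _ _ - _| ≤ _ at d₀
  set ℓ : ℝ := ((sc L J' : ℕ) : ℝ) with hℓ
  have l0 : 0 < ℓ := by rw [hℓ]; exact_mod_cast (by omega : 0 < sc L J')
  have rs := rescale l0 r0' cL (by rw [hℓ]; exact_mod_cast e4) n m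
  have w0 : 0 < ℓ ^ ((n : ℝ) / 8) * ℓ ^ m := by positivity
  generalize ℓ ^ ((n : ℝ) / 8) * ℓ ^ m = w at d₁ d₀ rs w0
  generalize UL.psi _ _ _ = ψ at d₁ d₀
  generalize lcor (gibbs J lam q.V β _ Λ) x y j = u at d₁ ⊢
  generalize lcor (gibbs J 0 (fun _ => 0) (Kc / J) _ Λ) x y j = u₀ at d₀ ⊢
  have k1 : |u - Zσ ^ n * Zε ^ m * u₀| ≤ |u - Zσ ^ n * Zε ^ m * ψ| + z * |u₀ - ψ| := by
    rw [hz, ← abs_mul, show u - Zσ ^ n * Zε ^ m * u₀ =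
      u - Zσ ^ n * Zε ^ m * ψ - Zσ ^ n * Zε ^ m * (u₀ - ψ) by ring]
    exact abs_sub _ _
  have k2 : w * |u - Zσ ^ n * Zε ^ m * u₀| ≤ ε / (c : ℝ) ^ (n + m) := by
    have k3 := mul_le_mul_of_nonneg_left d₀ z0
    have k4 := mul_le_mul_of_nonneg_left k1 w0.le
    have k5 : ε / (c : ℝ) ^ (n + m) = ε / (c : ℝ) ^ (n + m) / (z + 1) * (z + 1) := by
      field_simp
    rw [k5]
    nlinarith
  rw [← le_inv_mul_iff₀ w0] at k2
  refine k2.trans ((mul_le_mul_of_nonneg_right rs (by positivity)).trans (le_of_eq ?_))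
  field_simp

/-- The sets with tips can be dug. -/
theorem geoF (hD : DigU) (hC : ClsU) {ε : ℝ} (hε : 0 < ε) : ∃ L₀ : ℕ, ∀ L ≥ L₀, ∀ α > (0 : ℝ),
    ∃ κ > (0 : ℝ), ∃ N k₀ : ℕ, ∀ k ≥ k₀,
      GeoF (fun Λ r => ∃ P, RawU Λ P α κ r) (QU L ε k N) L := by
  obtain ⟨N, hD⟩ := hD
  obtain ⟨K, hK, hC⟩ := hC N
  obtain ⟨K', hD⟩ := hD K hK
  obtain ⟨Q, hQ, hC⟩ := hC K'
  obtain ⟨L₀, hC⟩ := hC ε hε
  refine ⟨L₀ + 2, fun L hL α hα => ?_⟩
  obtain ⟨κ₁, hκ₁, hC⟩ := hC L (by omega)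
  obtain ⟨κ₀, hκ₀, K₀, r₁, hD⟩ := hD α hα
  obtain ⟨N', hC⟩ := hC K₀
  refine ⟨min κ₀ κ₁, by positivity, N', r₁ + 1, fun k hk => ?_⟩
  have s1 := sc_ge (L := L) (J := k) (by omega)
  have s2 : sc L k ≤ Q * sc L k := Nat.le_mul_of_pos_left _ hQ
  obtain ⟨t, N₁, Qd, ht, hQd, hD⟩ := hD (Q * sc L k) (by omega)
  obtain ⟨D, hD'⟩ : ∃ D, D = Qd + Q + Q * sc L k + 4 * N₁ + 2 * t + 8 := ⟨_, rfl⟩
  refine ⟨t, N₁, D, 0, ht, by omega, fun Λ r T ⟨P, hP⟩ h1 h2 hΛ => ?_⟩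
  obtain ⟨c, c1, c2, c3⟩ := hD _ (by positivity) (min_le_left κ₀ κ₁) Λ P r T hP (by omega) hΛ
  have d1 : r / D ≤ r / Qd := Nat.div_le_div_left (by omega) hQd
  have d2 : r / D ≤ r / 2 := Nat.div_le_div_left (by omega) two_pos
  refine ⟨P.image c, fun p' hp' => ?_, fun p₁ h₁ p₂ h₂ e => ?_, fun M _ hM => ?_⟩
  · obtain ⟨p, hp, rfl⟩ := mem_image.1 hp'
    obtain ⟨a1, v, a2, a3⟩ := c2 p hp
    have a4 := c1 p
    have a5 := GeoA.zd_tri (c p) p 0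
    have a6 := GeoA.zd_tri v p (c p)
    rw [GeoA.zd_comm p] at a6
    exact ⟨by omega, v, a2, by omega⟩
  · obtain ⟨p, hp, rfl⟩ := mem_image.1 h₁
    obtain ⟨p', hp', rfl⟩ := mem_image.1 h₂
    have a1 := hP.sep p hp p' hp' fun k => e (k ▸ rfl)
    have a2 := c1 p
    have a3 := c1 p'
    have a4 := GeoA.zd_tri p (c p) p'
    have a5 := GeoA.zd_tri (c p) (c p') p'
    rw [GeoA.zd_comm p (c p)] at a4
    omega
  · obtain ⟨Tc, hT⟩ := c3 M hM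
    refine ⟨hT.rgh.mono d1, fun fr B ρ J b1 b2 _ b4 => ?_⟩
    have s3 := sc_ge (L := L) (J := J) (by omega)
    have s4 : Q * sc L J ≤ D * sc L J := Nat.mul_le_mul_right _ (by omega)
    have s5 : D ≤ D * sc L J := Nat.le_mul_of_pos_right _ (by omega)
    exact hC k (by omega) N₁ M (regOf M _ fr) _ Tc B ρ J (hT.mono (min_le_right _ _) (by omega)) b1
      (by omega) (by omega) (by omega)

open Filter Topology U2D in
theorem diffF {J lam β : ℝ} {Raw : ℝ → Finset Site → ℕ → Prop} {q : Par} {Zσ Zε : ℝ}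
    (hL : ∀ m, ∃ κ > 0, LatOKF (Raw κ) q Zσ Zε m) (hJ : 0 < J) (hV : IsPotential q.V)
    (hμ : q.μ = β * lam) (hx : q.x = Real.exp (-(2 * β * J))) {D : Set ℂ} (hD : IsOpen D)
    (hS : ∃ T > (0 : ℝ), ∀ κ > (0 : ℝ), ∃ ρ > (0 : ℝ), ∀ a > (0 : ℝ),
      (∀ x, x ∈ disc D a ↔ (⟨a * x.1, a * x.2⟩ : ℂ) ∈ D) ∧ (∀ x ∈ disc D a, a * zd x 0 ≤ T) ∧
        ∀ r : ℕ, 1 ≤ r → a * r ≤ ρ → Raw κ (disc D a) r) {b : Option (ℝ → Config)}
    (hb : StdBC b) : Diff D (crit J D b) (inDom J lam q.V β D b) Zσ Zε := by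
  intro p hp
  obtain ⟨κ, hκ, hL⟩ := hL p.m
  obtain ⟨T, hT, h1⟩ := hS
  obtain ⟨ρ, hρ, h1⟩ := h1 κ hκ
  obtain ⟨s, hs, hsρ, h2⟩ := spins hD hp hρ
  rw [Metric.tendsto_nhds]
  intro ε hε
  set K := ((s / 2) ^ (-(1 / 8) : ℝ)) ^ p.n * (s / 2)⁻¹ ^ p.m with hK
  have hK0 : 0 < K := by positivity
  obtain ⟨r₀, hr⟩ := hL J lam β hJ hμ hx p.n ⌈2 * T / s⌉₊ (ε / (2 * K)) (by positivity)
  have h3 : ∀ᶠ a in 𝓝[>] (0 : ℝ), a < s / (2 * (r₀ + 1)) :=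
    nhdsWithin_le_nhds (gt_mem_nhds (by positivity))
  filter_upwards [h2, h3, self_mem_nhdsWithin] with a ⟨hrc, hP⟩ ha ha0
  have ha0' : 0 < a := ha0
  obtain ⟨d1, d2, d3⟩ := h1 a ha0'
  have r1 : (⌊s / a⌋₊ : ℝ) ≤ s / a := Nat.floor_le (by positivity)
  generalize ⌊s / a⌋₊ = r at hrc hP r1
  have hr0 : r₀ + 1 ≤ r := by
    have : (r₀ + 1 : ℝ) ≤ s / (2 * a) := by
      rw [lt_div_iff₀ (by positivity)] at ha
      rw [le_div_iff₀ (by positivity)]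
      nlinarith
    exact_mod_cast this.trans hrc
  have hbox : ∀ v ∈ disc D a, zd v 0 ≤ ⌈2 * T / s⌉₊ * r := fun v hv => by
    have : (zd v 0 : ℝ) ≤ (⌈2 * T / s⌉₊ : ℝ) * r := by
      calc (zd v 0 : ℝ) ≤ T / a := by
            rw [le_div_iff₀' ha0']
            exact d2 v hv
        _ = 2 * T / s * (s / (2 * a)) := by field_simp
        _ ≤ _ := mul_le_mul (Nat.le_ceil _) hrc (by positivity) (by positivity)
    exact_mod_cast this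
  have hsh := d3 r (by omega) (((le_div_iff₀' ha0').1 r1).trans hsρ)
  have key := fun b hb => hr r (by omega) (disc D a) b _ _ p.j hb hsh hbox (hP _ d1)
  have k1 : |lcor (inDom J lam q.V β D b a) (fun i => fl a (p.x i)) (fun k => fl a (p.y k)) p.j -
      Zσ ^ p.n * Zε ^ p.m * lcor (crit J D b a) (fun i => fl a (p.x i)) (fun k => fl a (p.y k))
        p.j| ≤ ε / (2 * K) * (r : ℝ) ^ (-((p.n : ℝ) / 8)) / (r : ℝ) ^ p.m := by
    rcases hb with rfl | rfl | rfl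
    · exact key none (Or.inl rfl)
    · exact key _ (Or.inr rfl)
    · have k2 := key _ (Or.inr rfl)
      have e1 := lcor_not (J := J) (lam := lam) (β := β) hV (disc D a) (fun _ => true)
        (fun i => fl a (p.x i)) (fun k => fl a (p.y k)) p.j
      have e2 := lcor_not (J := J) (lam := 0) (β := Kc / J) U1.pot_zero (disc D a) (fun _ => true)
        (fun i => fl a (p.x i)) (fun k => fl a (p.y k)) p.j
      change |lcor (gibbs J lam q.V β (some fun _ => !true) (disc D a)) _ _ _ - Zσ ^ p.n *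
        Zε ^ p.m * lcor (gibbs J 0 (fun _ => 0) (Kc / J) (some fun _ => !true) (disc D a)) _ _ _| ≤ _
      rw [e1, e2, mul_left_comm, ← mul_sub, abs_mul, abs_pow, abs_neg, abs_one, one_pow, one_mul]
      exact k2
  have k2 := U4.scale ha0' hs hrc p.n p.m
  rw [Real.dist_eq, sub_zero]
  unfold crit inDom at *
  rw [corr_eq, corr_eq, mul_left_comm, ← mul_sub, abs_mul, abs_of_nonneg (by positivity)]
  refine lt_of_le_of_lt (mul_le_mul_of_nonneg_left k1 (by positivity)) ?_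
  rw [← hK, neg_div] at k2
  calc _ = ε / (2 * K) * ((a ^ (-(1 / 8) : ℝ)) ^ p.n * a⁻¹ ^ p.m / r ^ p.m *
        (r : ℝ) ^ (-((p.n : ℝ) / 8))) := by ring
    _ ≤ ε / (2 * K) * K := mul_le_mul_of_nonneg_left k2 (by positivity)
    _ = ε / 2 := by field_simp
    _ < ε := half_lt_self hε

end Vale.Agent.P144Z
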