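import Vale.Agent.P144E.Tilt.Half
import Vale.Agent.P144E.Lat.Main
import Vale.Agent.P144U.Fl.Defs

/-!
The correlations of a set in terms of the dug set, for weighted corrections.
-/

namespace Vale.Agent.P144Z

open Finset P144 UL

namespace FrU

theorem wt_add {M : ℕ} [NeZero M] {c v : Cor M} {σ γ θ : ℝ} {K : ℕ} (hσ : 0 ≤ σ) (h : c.Wt σ γ)
    (hv : v.Le K θ) : (c + v).Wt σ (γ + W.R5.eR σ K * θ) := by
  obtain ⟨b, h1, h2⟩ := h
  obtain ⟨b', k1, k2, k3⟩ := hv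
  have h0 : ∀ X, 0 ≤ b' X := fun X => (abs_nonneg _).trans (k1 X fun _ => true)
  refine ⟨fun X => b X + b' X, fun X n => (abs_add_le _ _).trans (add_le_add (h1 X n) (k1 X n)),
    fun y => ?_⟩
  simp only [add_mul, sum_add_distrib]
  refine add_le_add (h2 y) (le_trans ?_ (mul_le_mul_of_nonneg_left (k3 y) (Real.exp_pos _).le))
  rw [mul_sum]
  refine sum_le_sum fun X hX => ?_
  rw [mul_comm]
  by_cases h5 : b' X = 0
  · rw [h5, mul_zero, mul_zero]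
  · refine mul_le_mul_of_nonneg_right (Real.exp_le_exp.2 (mul_le_mul_of_nonneg_left ?_ hσ)) (h0 X)
    exact_mod_cast Nat.add_le_add_left
      (R5.stein_le_of_ball fun x hx => k2 X h5 x hx y (mem_filter.1 hX).2) 1

open TiltH in
/-- A product of local observables is a combination of small corrections. -/
theorem tilt {C θ₀ σ : ℝ} (k₀ K : ℕ) (hC : 1 ≤ C) (hθ₀ : 0 < θ₀) (hσ : 0 ≤ σ) :
    ∃ B : ℝ, ∀ q : Par, 0 < q.x → ∀ (M : ℕ) [NeZero M]
    (Λ P : Finset (ℤ × ℤ)) (fr : Bool) (T : ℕ) (O : ℤ × ℤ → (Tor M × Fin 2 → Bool) → ℝ)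
    (γ : ℝ), (∀ v ∈ Λ, zd v 0 ≤ T) → (∀ p ∈ P, zd p 0 ≤ T ∧ ∀ v, zd v p ≤ 1 → v ∉ Λ) →
    (∀ p ∈ P, ∀ p' ∈ P, p ≠ p' → 2 * K < zd p p') → P.card ≤ k₀ →
    4 * (T + K + q.R + 2) ≤ M → LocE P K O → (∀ p n, C⁻¹ ≤ O p n ∧ O p n ≤ C) →
    ((regOf M Λ fr).cor q).Ok → ((regOf M Λ fr).cor q).Off (regOf M Λ fr).pw →
    ((regOf M Λ fr).cor q).Wt σ γ →
    ∃ (u : Finset (ℤ × ℤ) → Cor M) (c : Finset (ℤ × ℤ) → ℝ),
      (∀ U, (u U).Ok ∧ (u U).Off (regOf M Λ fr).pw ∧ (u U).Wt σ (γ + θ₀) ∧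
        ZwC q (u U) (regOf M Λ fr).pw 1 ≠ 0) ∧ ∑ U ∈ P.powerset, |c U| ≤ B ∧
      1 ≤ B * ∑ U ∈ P.powerset, c U ∧ ∀ (A : Gauge M) (Φ : (Tor M × Fin 2 → Bool) → ℝ),
        ZwC q ((regOf M Λ fr).cor q) A (fun n => Φ n * ∏ p ∈ P, O p n) /
            ZwC q ((regOf M Λ fr).cor q) (regOf M Λ fr).pw 1 =
          ∑ U ∈ P.powerset, c U * (ZwC q (u U) A Φ / ZwC q (u U) (regOf M Λ fr).pw 1) := by
  have he := W.R5.one_le_eR hσ (2 * K)
  obtain ⟨θ, hθ, hθ'⟩ : ∃ θ > (0 : ℝ), W.R5.eR σ (2 * K) * θ = θ₀ :=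
    ⟨θ₀ / W.R5.eR σ (2 * K), by positivity, by field_simp⟩
  set th := min θ 1 with hth
  have t0 : 0 < th := lt_min hθ one_pos
  have t1 : th ≤ 1 := min_le_right _ _
  have t2 : th ≤ θ := min_le_left _ _
  have C0 : 0 < C := by linarith
  have C1 : 1 ≤ C / th := (one_le_div t0).2 (by linarith)
  refine ⟨(4 * (C / th)) ^ k₀, fun q hx M _ Λ P fr T O γ hΛ hP hs hk hM hO hb c1 c2 c3 => ?_⟩
  set R := regOf M Λ fr with hR
  have g0 : ∀ p n, 0 ≤ th * (O p n / C) ∧ th * (O p n / C) ≤ th := fun p n => by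
    have h1 : 0 < O p n := (inv_pos.2 C0).trans_le (hb p n).1
    exact ⟨by positivity, mul_le_of_le_one_right t0.le ((div_le_one C0).2 (hb p n).2)⟩
  set w : ℤ × ℤ → (Tor M × Fin 2 → Bool) → ℝ := fun p n => Real.log (1 + th * (O p n / C)) with hw
  have w1 : ∀ p n, Real.exp (w p n) = 1 + th * (O p n / C) := fun p n =>
    Real.exp_log (by linarith [(g0 p n).1])
  have w2 : ∀ p n, |w p n| ≤ θ := fun p n => by
    have h1 := Real.log_le_sub_one_of_pos (show 0 < 1 + th * (O p n / C) by linarith [(g0 p n).1])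
    rw [abs_of_nonneg (Real.log_nonneg (by linarith [(g0 p n).1]))]
    linarith [(g0 p n).2]
  have hΛ' : ∀ v ∈ Λ, zd v 0 ≤ T + K := fun v hv => (hΛ v hv).trans (Nat.le_add_right _ _)
  have lO : ∀ p ∈ P, BoxLoc (T + K + 1) (O p) := fun p hp n n' h => hO p hp n n' fun e he _ => by
    have h1 := G.mem_ball.1 he
    have h2 := tdist_triangle e.1 (prj M p) 0
    have h3 := (H3.tdist_prj_zero (M := M) p).trans (hP p hp).1
    exact h e (by omega)
  have Z0 := (avg hx hΛ' hM fr).1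
  set ρ : Finset (ℤ × ℤ) → ℝ := fun U =>
    ZwC q (R.cor q) R.pw (fun n => 1 * ∏ p ∈ U ∩ P, Real.exp (w p n)) / ZwC q (R.cor q) R.pw 1
    with hρ
  have r1 : ∀ U, 1 ≤ ρ U ∧ ρ U ≤ 2 ^ P.card := fun U => by
    refine avg_bd hx hΛ' hM fr (fun n n' h => ?_) fun n => ?_
    · simp only [w1]
      exact congrArg _ (prod_congr rfl fun p hp => by rw [lO p (mem_inter.1 hp).2 n n' h])
    · simp only [w1, one_mul]
      refine ⟨one_le_prod fun p _ => by linarith [(g0 p n).1], (prod_le_prod (g := fun _ => 2)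
        (fun p _ => by linarith [(g0 p n).1]) fun p _ => by linarith [(g0 p n).2]).trans ?_⟩
      rw [prod_const]
      exact pow_le_pow_right₀ one_le_two (card_le_card inter_subset_right)
  have Zu : ∀ U, ZwC q (R.cor q + ext (U ∩ P) K w) R.pw 1 = ρ U * ZwC q (R.cor q) R.pw 1 :=
    fun U => by
      rw [ZwC_ext, hρ, div_mul_cancel₀ _ Z0]
      rfl
  have key : ∀ (A : Gauge M) (Φ : (Tor M × Fin 2 → Bool) → ℝ),
      ZwC q (R.cor q) A (fun n => Φ n * ∏ p ∈ P, O p n) / ZwC q (R.cor q) R.pw 1 =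
        ∑ U ∈ P.powerset, (C / th) ^ P.card * (-1) ^ (P \ U).card * ρ U *
          (ZwC q (R.cor q + ext (U ∩ P) K w) A Φ / ZwC q (R.cor q + ext (U ∩ P) K w) R.pw 1) := by
    intro A Φ
    have e : (fun n => Φ n * ∏ p ∈ P, O p n) = fun n => ∑ U ∈ P.powerset,
        (C / th) ^ P.card * (-1) ^ (P \ U).card * (Φ n * ∏ p ∈ U ∩ P, Real.exp (w p n)) := by
      funext n
      have e1 : ∀ p, O p n = C / th * (Real.exp (w p n) + -1) := fun p => by
        rw [w1]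
        field_simp
        ring
      rw [prod_congr rfl fun p _ => e1 p, prod_mul_distrib, prod_add, prod_const, mul_sum, mul_sum]
      refine sum_congr rfl fun U hU => ?_
      rw [prod_const, inter_eq_left.2 (mem_powerset.1 hU)]
      ring
    rw [e, ZwC_sum, sum_div]
    refine sum_congr rfl fun U _ => ?_
    have h1 : ρ U ≠ 0 := by linarith [(r1 U).1]
    rw [Zu, ZwC_ext]
    field_simp
  refine ⟨fun U => R.cor q + ext (U ∩ P) K w,
    fun U => (C / th) ^ P.card * (-1) ^ (P \ U).card * ρ U, fun U => ⟨⟨fun n => ?_, ?_⟩, ?_, ?_, ?_⟩,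
    ?_, ?_, key⟩
  · dsimp only
    rw [Pi.add_apply, Pi.add_apply, c1.empty, zero_add]
    refine sum_eq_zero fun p hp => absurd (mem_filter.1 hp).2.2 (Nonempty.ne_empty ⟨prj M p, ?_⟩)
    exact G.mem_ball.2 (by rw [tdist_self]; omega)
  · intro X n n' h
    dsimp only
    rw [Pi.add_apply, Pi.add_apply, Pi.add_apply, c1.dep X n n' h]
    refine congrArg _ (sum_congr rfl fun p hp => ?_)
    obtain ⟨h1, -, rfl⟩ := mem_filter.1 hp
    simp only [hw, hO p (mem_inter.1 h1).2 n n' h]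
  · intro X hX n
    dsimp only
    rw [Pi.add_apply, Pi.add_apply, c2 X hX, zero_add]
    refine sum_eq_zero fun p hp => ?_
    obtain ⟨h1, -, rfl⟩ := mem_filter.1 hp
    obtain ⟨h2, h3⟩ := hP p (mem_inter.1 h1).2
    have h4 := hX (prj M p) (G.mem_ball.2 (by rw [tdist_self]; omega))
    have h5 : ∀ f, tdist f (prj M p) ≤ 1 → f ∉ R.In := fun f hf =>
      DC.not_in hΛ h2 (by omega) h3 hf
    have h6 := h5 (prj M p) (by rw [tdist_self]; omega)
    cases fr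
    · have h7 := h5 (oth (prj M p, 0)) ((DC.near_oth _ _).trans (by rw [tdist_self]))
      have h8 : R.pw (prj M p, 0) = 0 := by
        rw [Reg.pw, if_neg (by simp [hR, regOf]), if_neg (not_or.2 ⟨h6, h7⟩)]
      rw [flux, h8] at h4
      simp at h4
    · exact absurd (DC.in_of_flux rfl h4 0).1 h6
  · rw [← hθ']
    refine wt_add hσ c3 ?_
    refine DC.le_terms (U ∩ P) (fun _ => True) (fun p => ball (prj M p) K) (fun _ => θ) w
      (fun p _ n => w2 p n) (fun p _ x hx y hy => ?_) (fun x => ?_) fun X n => rfl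
    · have h3 := G.mem_ball.1 hx
      have h4 := G.mem_ball.1 hy
      have h5 := tdist_triangle x (prj M p) y
      rw [tdist_comm (prj M p)] at h5
      omega
    · have h3 : ((U ∩ P).filter fun p => x ∈ ball (prj M p) K).card ≤ 1 := by
        refine card_le_one.2 fun p hp p' hp' => by_contra fun e => ?_
        obtain ⟨a1, a2⟩ := mem_filter.1 hp
        obtain ⟨a3, a4⟩ := mem_filter.1 hp'
        have a5 := hs p (mem_inter.1 a1).2 p' (mem_inter.1 a3).2 e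
        rw [← H3.tdist_prj (M := M) (hP p (mem_inter.1 a1).2).1 (hP p' (mem_inter.1 a3).2).1
          (by omega)] at a5
        have a6 := tdist_triangle (prj M p) x (prj M p')
        rw [tdist_comm _ x] at a6
        have a7 := G.mem_ball.1 a2
        have a8 := G.mem_ball.1 a4
        omega
      rw [sum_const, nsmul_eq_mul]
      exact mul_le_of_le_one_left hθ.le (by exact_mod_cast h3)
  · rw [Zu]
    exact mul_ne_zero (by linarith [(r1 U).1]) Z0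
  · refine (sum_le_card_nsmul _ _ ((C / th) ^ P.card * 2 ^ P.card) fun U _ => ?_).trans ?_
    · rw [abs_mul, abs_mul, abs_pow (-1), abs_neg, abs_one, one_pow, mul_one,
        abs_of_nonneg (by positivity), abs_of_nonneg (by linarith [(r1 U).1])]
      exact mul_le_mul_of_nonneg_left (r1 U).2 (by positivity)
    · rw [card_powerset, nsmul_eq_mul]
      refine le_trans (le_of_eq ?_) (pow_le_pow_right₀ (by linarith) hk)
      rw [show (4 : ℝ) = 2 * 2 by norm_num]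
      push_cast
      simp only [mul_pow]
      ring
  · have h1 := key R.pw 1
    rw [sum_congr rfl fun U _ => by
      rw [div_self (by rw [Zu]; exact mul_ne_zero (by linarith [(r1 U).1]) Z0), mul_one]] at h1
    rw [← h1]
    have h2 := (avg_bd hx hΛ' hM fr (Φ := fun n => (1 : (Tor M × Fin 2 → Bool) → ℝ) n *
      ∏ p ∈ P, O p n) (a := C⁻¹ ^ P.card) (b := C ^ P.card) (fun n n' h => by
        exact congrArg _ (prod_congr rfl fun p hp => lO p hp n n' h)) fun n => by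
        rw [Pi.one_apply, one_mul, ← prod_const, ← prod_const]
        exact ⟨prod_le_prod (fun _ _ => by positivity) fun p _ => (hb p n).1,
          prod_le_prod (fun p _ => (inv_pos.2 C0).le.trans (hb p n).1) fun p _ => (hb p n).2⟩).1
    have h3 : C ^ P.card ≤ (4 * (C / th)) ^ k₀ := by
      have : C ≤ C / th := le_div_self C0.le t0 t1
      exact (pow_le_pow_left₀ C0.le (by linarith) _).trans (pow_le_pow_right₀ (by linarith) hk)
    calc (1 : ℝ) = C ^ P.card * C⁻¹ ^ P.card := by rw [← mul_pow, mul_inv_cancel₀ C0.ne', one_pow]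
      _ ≤ _ := mul_le_mul h3 h2 (by positivity) (by positivity)


section

variable {M : ℕ} [NeZero M] {H m n : ℕ}

/-- The main estimates for the sums over the sectors at the scale `ℓ`. -/
def CoreW (q : Par) (Zσ Zε σ γ : ℝ) (R : Reg M) (a : ℤ × ℤ) (hs : Fin H → ℤ × ℤ)
    (y : Fin m → ℤ × ℤ) (j : Fin m → Fin 2) (x : Fin n → ℤ × ℤ) (ℓ B ε : ℝ) : Prop :=
  ∀ u : Cor M, u.Ok → u.Off R.pw → u.Wt σ γ →
    (∀ t : Finset (Fin m), |ℓ ^ ((n : ℝ) / 8) * ℓ ^ t.card * mxU q u R a hs y j x t -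
      Zσ ^ n * ℓ ^ ((n : ℝ) / 8) * (Zε * ℓ) ^ t.card * mx par0 R a hs y j x t| ≤ ε ∧
      |ℓ ^ ((n : ℝ) / 8) * ℓ ^ t.card * mx par0 R a hs y j x t| ≤ B) ∧
    ∀ u' : Cor M, u'.Ok → u'.Off R.pw → u'.Wt σ γ → ∀ k,
      ℓ * |enC q u R.pw (yE M y j k) (dE y j k) - enC q u' R.pw (yE M y j k) (dE y j k)| ≤ ε

variable {q : Par} {a : Site} {hs : Fin H → Site}
  {y : Fin m → Site} {j : Fin m → Fin 2} {x : Fin n → Site} {W : (Tor M × Fin 2 → Bool) → ℝ}

theorem CoreW.monoB {Zσ Zε σ γ : ℝ} {R : Reg M} {ℓ B B' ε : ℝ}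
    (h : CoreW q Zσ Zε σ γ R a hs y j x ℓ B ε) (hB : B ≤ B') :
    CoreW q Zσ Zε σ γ R a hs y j x ℓ B' ε := fun u h1 h2 h3 =>
  ⟨fun t => ⟨((h u h1 h2 h3).1 t).1, ((h u h1 h2 h3).1 t).2.trans hB⟩, (h u h1 h2 h3).2⟩

open TiltH in
/-- The main estimates for the weighted sums. -/
theorem est {ι : Type} {R : Reg M} {s : Finset ι} {u : ι → Cor M} {c : ι → ℝ}
    {Zσ Zε σ γ ℓ B B₁ z ε : ℝ} (hT : ∀ (A : Gauge M) (Φ : (Tor M × Fin 2 → Bool) → ℝ),
      ZwC q (R.cor q) A (fun n => Φ n * W n) / ZwC q (R.cor q) R.pw 1 =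
        ∑ U ∈ s, c U * (ZwC q (u U) A Φ / ZwC q (u U) R.pw 1))
    (hu : ∀ U, (u U).Ok ∧ (u U).Off R.pw ∧ (u U).Wt σ γ) (U₀ : ι)
    (h1 : ∑ U ∈ s, |c U| ≤ B₁) (h2 : 1 ≤ B₁ * ∑ U ∈ s, c U) (hε : 0 ≤ ε) (hε1 : ε ≤ 1)
    (hℓ : 0 < ℓ) (hz : ∀ k ≤ m, |Zσ ^ n * Zε ^ k| ≤ z)
    (hc : CoreW q Zσ Zε σ γ R a hs y j x ℓ B ε) (t : Finset (Fin m)) :
    |ℓ ^ ((n : ℝ) / 8) * ℓ ^ t.card * (nW q R a hs y j
        (fun k => enC q (u U₀) R.pw (yE M y j k) (dE y j k)) W x t / ∑ U ∈ s, c U) -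
      Zσ ^ n * ℓ ^ ((n : ℝ) / 8) * (Zε * ℓ) ^ t.card * mx par0 R a hs y j x t| ≤
        B₁ ^ 2 * (1 + 2 ^ m * (1 + z * |B|)) * ε ∧
    |Zσ ^ n * ℓ ^ ((n : ℝ) / 8) * (Zε * ℓ) ^ t.card * mx par0 R a hs y j x t| ≤ z * |B| := by
  have k : ∀ t : Finset (Fin m),
      |Zσ ^ n * ℓ ^ ((n : ℝ) / 8) * (Zε * ℓ) ^ t.card * mx par0 R a hs y j x t| ≤ z * |B| := by
    intro t
    have e1 := hz t.card (by simpa using card_le_univ t)
    have e2 := ((hc _ (hu U₀).1 (hu U₀).2.1 (hu U₀).2.2).1 t).2.trans (le_abs_self B)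
    refine le_trans (le_of_eq ?_) (mul_le_mul e1 e2 (abs_nonneg _) ((abs_nonneg _).trans e1))
    rw [← abs_mul]
    exact congrArg _ (by ring)
  refine ⟨?_, k t⟩
  rw [← mul_div_assoc, nW_eq hT]
  refine comb s c h1 h2 hε hε1 (fun U k => ℓ * (enC q (u U) R.pw (yE M y j k) (dE y j k) -
    enC q (u U₀) R.pw (yE M y j k) (dE y j k))) (fun U k => ?_)
    (fun U t' => ℓ ^ ((n : ℝ) / 8) * ℓ ^ t'.card * mxU q (u U) R a hs y j x t') _
    (fun U t' => ((hc _ (hu U).1 (hu U).2.1 (hu U).2.2).1 t').1) k t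
  rw [abs_mul, abs_of_pos hℓ]
  exact (hc _ (hu U).1 (hu U).2.1 (hu U).2.2).2 _ (hu U₀).1 (hu U₀).2.1 (hu U₀).2.2 k

end

open TiltH in
/-- The correlations of a set in terms of the nearest-neighbour model on the dug set. -/
theorem halfW (hS : SpStmt) (R₁ t n m k₀ : ℕ) (B : ℝ) {θ σ : ℝ} (Zσ Zε : ℝ) {ε : ℝ} (ht : 1 ≤ t)
    (hθ : 0 < θ) (hσ : 0 ≤ σ) (hε : 0 < ε) : ∃ ε' > (0 : ℝ),
    ∀ (J lam β : ℝ) (q : Par) (γ : ℝ), UL.Rel J lam β q →
    (∀ B, q.V B ≠ 0 → (0, 0) ∈ B → B ∈ potSets R₁) → 1 / 4 ≤ q.x → q.x ≤ 1 / 2 → q.Small 1 →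
    ∀ (M : ℕ) [NeZero M] (Λ P : Finset Site) (fr : Bool) (T r H : ℕ) (a : Site)
    (hs : Fin H → Site) (x : Fin n → Site) (y : Fin m → Site) (j : Fin m → Fin 2) (ℓ : ℝ),
    Holes (dig Λ P t) T r a hs → (fr = false → Cn M (dig Λ P t) a hs) →
    (fr = true → H = 0 ∧ Even n) → (∀ p ∈ P, zd p 0 ≤ T) →
    (∀ p ∈ P, ∀ p' ∈ P, p ≠ p' → 2 * (t + R₁ + 2) < zd p p') → P.card ≤ k₀ →
    4 * (T + t + R₁ + q.R + 4) ≤ M → (∀ i, x i ∈ dig Λ P t) →
    (∀ k, y k ∈ dig Λ P t ∧ y k + dir (j k) ∈ dig Λ P t) → 0 < ℓ →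
    ((regOf M (dig Λ P t) fr).cor q).Ok →
    ((regOf M (dig Λ P t) fr).cor q).Off (regOf M (dig Λ P t) fr).pw →
    ((regOf M (dig Λ P t) fr).cor q).Wt σ γ →
    CoreW q Zσ Zε σ (γ + θ) (regOf M (dig Λ P t) fr) a hs y j x ℓ B ε' →
    CoreW q Zσ Zε σ (γ + θ) (regOf M (dig Λ P t) fr) a hs y j Fin.elim0 ℓ B ε' →
      ℓ ^ ((n : ℝ) / 8) * ℓ ^ m *
        |lcor (gibbs J lam q.V β (if fr then none else some fun _ => true) Λ) x y j -
          Zσ ^ n * Zε ^ m * UL.psi (mx par0 (regOf M (dig Λ P t) fr) a hs y j Fin.elim0 ∅)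
            (fun k => mx par0 (regOf M (dig Λ P t) fr) a hs y j Fin.elim0 {k})
            (mx par0 (regOf M (dig Λ P t) fr) a hs y j x)| ≤ ε := by
  obtain ⟨C, hC, hS⟩ := hS R₁ t
  obtain ⟨B₁, hT⟩ := tilt k₀ (t + R₁ + 2) hC hθ hσ
  set z : ℝ := (|Zσ| + 1) ^ n * (|Zε| + 1) ^ m with hz
  have a1 : 1 ≤ |Zσ| + 1 := by linarith [abs_nonneg Zσ]
  have a2 : 1 ≤ |Zε| + 1 := by linarith [abs_nonneg Zε]
  have a6 : ∀ i ≤ n, ∀ k ≤ m, |Zσ ^ i * Zε ^ k| ≤ z := fun i hi k hk => by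
    rw [abs_mul, abs_pow, abs_pow]
    exact mul_le_mul ((pow_le_pow_left₀ (abs_nonneg _) (by linarith) i).trans
      (pow_le_pow_right₀ a1 hi)) ((pow_le_pow_left₀ (abs_nonneg _) (by linarith) k).trans
        (pow_le_pow_right₀ a2 hk)) (by positivity) (by positivity)
  obtain ⟨δ₀, hδ₀, hψ⟩ := psi_cont m (z * |B|) hε
  set κ : ℝ := B₁ ^ 2 * (1 + 2 ^ m * (1 + z * |B|)) with hκ
  have κ0 : 0 ≤ κ := by positivity
  refine ⟨min 1 (δ₀ / (κ + 1)), by positivity, fun J lam β q γ hq hR x1 x2 hsm M _ Λ P fr T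
    r H a hs x y j ℓ h1 hc hfr hP hsep hk hM hx hy hℓ c1 c2 c3 d₁ d₀ => ?_⟩
  have κ1 : κ * min 1 (δ₀ / (κ + 1)) ≤ δ₀ := by
    refine (mul_le_mul_of_nonneg_left (min_le_right _ _) κ0).trans ?_
    rw [← mul_div_assoc, div_le_iff₀ (by linarith)]
    nlinarith
  obtain ⟨O, hO, hb, hG⟩ := hS J lam β q hq hR x1 x2 hsm M Λ P fr T r H a hs h1 hc
    (fun h => (hfr h).1) hP hsep hM
  have x0 : 0 < q.x := by linarith
  obtain ⟨u, c, hu, s1, s2, hT⟩ := hT q x0 M (dig Λ P t) P fr T O γ h1.box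
    (fun p hp => ⟨hP p hp, fun v hv h => by
      have := (mem_dig.1 h).2 p hp
      omega⟩) hsep hk (by omega) hO hb c1 c2 c3
  have hu' : ∀ U, (u U).Ok ∧ (u U).Off (regOf M (dig Λ P t) fr).pw ∧ (u U).Wt σ (γ + θ) :=
    fun U => ⟨(hu U).1, (hu U).2.1, (hu U).2.2.1⟩
  have Z0 := (avg x0 h1.box (by omega : 4 * (T + q.R + 2) ≤ M) fr).1
  have ω0 : ∑ U ∈ P.powerset, c U ≠ 0 := fun h => by
    rw [h, mul_zero] at s2
    linarith
  have e₁ := est hT hu' ∅ s1 s2 (by positivity) (min_le_left _ _) hℓ (a6 n le_rfl) d₁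
  have e₀ := est hT hu' ∅ s1 s2 (by positivity) (min_le_left _ _) hℓ (a6 0 (Nat.zero_le n)) d₀
  simp only [Nat.cast_zero, zero_div, Real.rpow_zero, pow_zero, one_mul] at e₀
  set R := regOf M (dig Λ P t) fr with hRR
  set e : Fin m → ℝ := fun k => enC q (u ∅) R.pw (yE M y j k) (dE y j k) with he
  have q1 : lcor (gibbs J lam q.V β (if fr then none else some fun _ => true) Λ) x y j =
      UL.psi (nW q R a hs y j e (fun n => ∏ p ∈ P, O p n) Fin.elim0 ∅)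
        (fun k => nW q R a hs y j e (fun n => ∏ p ∈ P, O p n) Fin.elim0 {k})
        (nW q R a hs y j e (fun n => ∏ p ∈ P, O p n) x) := by
    refine recentre _ Λ _ (fun k σ => sp (σ (y k)) * sp (σ (y k + dir (j k)))) e (fun k => ?_)
      (sec_W (UG.gibbs_one _ _) hG Z0 h1 hx hy (fun h => (hfr h).2) e)
    have h := sec_W (x := Fin.elim0) (UG.gibbs_one _ _) hG Z0 h1 (fun i => i.elim0) hy
      (fun _ => Even.zero) e {k}
    simpa only [univ_eq_empty, prod_empty, one_mul, prod_singleton] using h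
  have o1 := TiltH.one_le_mx (M := M) (a := a) (hs := hs) y j h1.box (by omega) fun h => (hfr h).1
  set w : ℝ := ℓ ^ ((n : ℝ) / 8) with hw
  have w0 : 0 < w * ℓ ^ m := by positivity
  have key := hψ (nW q R a hs y j e (fun n => ∏ p ∈ P, O p n) Fin.elim0 ∅ / ∑ U ∈ P.powerset, c U)
    _ (fun k => ℓ * (nW q R a hs y j e (fun n => ∏ p ∈ P, O p n) Fin.elim0 {k} /
      ∑ U ∈ P.powerset, c U)) (fun k => Zε * ℓ * mx par0 R a hs y j Fin.elim0 {k})
    (fun t => w * ℓ ^ t.card * (nW q R a hs y j e (fun n => ∏ p ∈ P, O p n) x t /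
      ∑ U ∈ P.powerset, c U))
    (fun t => Zσ ^ n * w * (Zε * ℓ) ^ t.card * mx par0 R a hs y j x t) o1
    (by
      have h := (e₀ ∅).2
      simp only [card_empty, pow_zero, one_mul] at h
      exact (le_abs_self _).trans h)
    (fun k => by simpa only [card_singleton, pow_one] using (e₀ {k}).2) (fun t => (e₁ t).2)
    (by simpa only [card_empty, pow_zero, one_mul] using (e₀ ∅).1.trans κ1)
    (fun k => by simpa only [card_singleton, pow_one] using (e₀ {k}).1.trans κ1)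
    fun t => (e₁ t).1.trans κ1
  rw [psi_scale, psi_scale, psi_div _ _ _ ω0, ← q1] at key
  refine le_trans (le_of_eq ?_) key
  rw [← abs_of_pos w0, ← abs_mul, abs_of_pos w0]
  exact congrArg _ (by ring)

theorem core (hK : KStmtW) {Q : Cls} {q : Par} {Zσ Zε σ γ : ℝ} {L m : ℕ} (hL : 2 ≤ L)
    (hM : MainU Q q Zσ Zε L m σ γ) (hE : EnU Q q L m σ γ) (N n H₀ Λ₁ : ℕ) :
    ∃ B : ℝ, ∀ ε > 0, ∃ J₀ : ℕ, ∀ J ≥ J₀, ∀ (M : ℕ) [NeZero M] (Λ : Finset Site) (fr : Bool)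
      (T r H : ℕ) (x : Fin n → Site) (y : Fin m → Site) (j : Fin m → Fin 2) (a : Site)
      (hs : Fin H → Site), H ≤ H₀ → Rgh (regOf M Λ fr).In N r →
      (∀ B, Str (regOf M Λ fr).pw B (r - 1) → Q M ((regOf M Λ fr).pw * B) J) → Holes Λ T r a hs →
      Spins Λ r (Sum.elim x y) → (fr = true → H = 0 ∧ Even n) → 16 * sc L J + 1 ≤ r → r ≤ T →
      T ≤ Λ₁ * sc L J → M = 64 * T →
        CoreW q Zσ Zε σ γ (regOf M Λ fr) a hs y j x (sc L J) B ε := by
  obtain ⟨CK, Γ, h, hCK, hΓ, hh, r₀, hK⟩ := hK N n Λ₁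
  obtain ⟨C, hM⟩ := hM (n + H₀ + 1 + m) (64 * Λ₁) Γ h hΓ hh
  refine ⟨2 ^ H₀ * (|C| * CK), fun ε hε => ?_⟩
  obtain ⟨J₀, hM⟩ := hM (ε / (2 ^ H₀ * (CK + 1))) (by positivity)
  obtain ⟨J₁, hE⟩ := hE (n + H₀ + 1 + m) (64 * Λ₁) Γ hΓ ε hε
  refine ⟨max (max J₀ J₁) (r₀ + 1), fun J hJ M _ Λ fr T r H x y j a hs hH hS hB h1 h2 hfr r1 r2 r3
    hMT u d1 d3 d2 => ?_⟩
  have l1 : 8 * J + 8 ≤ sc L J := sc_ge hL
  have l2 : r₀ + 1 ≤ J := le_of_max_le_right hJ
  set ℓ := sc L J with hℓ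
  set R := regOf M Λ fr with hR
  have l0 : (0 : ℝ) < ℓ := by exact_mod_cast (by omega : 0 < ℓ)
  have r4 : 8 * ℓ ≤ r - 3 := by omega
  have hx : Spins Λ r x := h2.comp Sum.inl_injective
  have hK' := fun S : Finset (Fin H) => hK M Λ fr T r ℓ H x a hs S hS h1 hx hfr (by omega)
    (by omega) (by omega) r2 r3 hMT.ge
  have dom : ∀ (t : Finset (Fin m)) (S : Finset (Fin H)),
      DomQ Q R.pw (spinG M a x * holeG M a hs S) (fun k : t => yE M y j k)
        (fun k : t => dE y j k) n L J (n + H₀ + 1 + m) (64 * Λ₁) Γ := by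
    intro t S
    have hxy : Spins Λ r (Sum.elim x fun k : t => y k) := by
      have := h2.comp (f := Sum.map id fun k : t => k.1)
        (Function.injective_id.sumMap Subtype.val_injective)
      rwa [Sum.elim_comp_map] at this
    obtain ⟨s1, -, -, -, s5, s6⟩ := str_reg (M := M) S h1 hx hfr (by omega) (by omega)
    have b0 := hB 1 (str_one _ _)
    rw [mul_one] at b0
    have sp := sepW_reg (M := M) S (fun k : t => j k) J h1 hxy hfr (by omega) (by omega)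
    have cd : t.card ≤ m := by simpa using card_le_univ t
    exact
      { P_ok := R.isP
        str := s1.mono (by omega)
        sep := ⟨fun f hf f' h' h'' => sp.ff f hf f' h' (h''.trans r4),
          fun k f hf => sp.fs k f (hf.trans r4), fun k k' hk => r4.trans_lt (sp.ss k k' hk)⟩
        lo := by omega
        hi := by rw [hMT, mul_assoc]; exact Nat.mul_le_mul_left _ r3
        bd := hB _ s1
        bd0 := b0
        gap := (hK' S).1
        card := by rw [Fintype.card_coe]; omega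
        cnt := s6 }
  have cd : ∀ t : Finset (Fin m), Fintype.card t ≤ m := fun t => by
    simpa using card_le_univ t
  refine ⟨fun t => ?_, fun u' e1 e3 e2 k => hE J (le_of_max_le_right (le_of_max_le_left hJ)) M R.pw
    _ u u' _ _ _ n (cd {k}) (dom {k} ∅) d1 d2 d3 e1 e2 e3 ⟨k, mem_singleton_self k⟩⟩
  have key : ∀ S : Finset (Fin H),
      |mixC q u R.pw (spinG M a x * holeG M a hs S) (fun k : t => yE M y j k)
          (fun k : t => dE y j k) - Zσ ^ n * Zε ^ t.card * mixC par0 (R.cor par0) R.pw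
          (spinG M a x * holeG M a hs S) (fun k : t => yE M y j k) (fun k : t => dE y j k)| ≤
        ε / (2 ^ H₀ * (CK + 1)) / (ℓ : ℝ) ^ t.card * (CK * (ℓ : ℝ) ^ (-((n : ℝ) / 8))) ∧
      |mixC par0 (R.cor par0) R.pw (spinG M a x * holeG M a hs S) (fun k : t => yE M y j k)
          (fun k : t => dE y j k)| ≤ C / (ℓ : ℝ) ^ t.card * (CK * (ℓ : ℝ) ^ (-((n : ℝ) / 8))) := by
    intro S
    have := hM J (le_of_max_le_left (le_of_max_le_left hJ)) M R.pw _ u t (fun k : t => yE M y j k)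
      (fun k : t => dE y j k) n (CK * (ℓ : ℝ) ^ (-((n : ℝ) / 8))) (cd t) (dom t S) d1 d2 d3
      (by positivity) ((hK' S).2 _ _ _ _)
    rwa [Fintype.card_coe, ← R.cor_par0] at this
  have cS : ((univ : Finset (Finset (Fin H))).card : ℝ) ≤ 2 ^ H₀ := by
    rw [card_univ, Fintype.card_finset, Fintype.card_fin]
    exact_mod_cast Nat.pow_le_pow_right (by norm_num) hH
  have w0 : 0 < (ℓ : ℝ) ^ ((n : ℝ) / 8) * (ℓ : ℝ) ^ t.card := by positivity
  have w1 : ∀ u : ℝ, (ℓ : ℝ) ^ ((n : ℝ) / 8) * (ℓ : ℝ) ^ t.card *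
      (u / (ℓ : ℝ) ^ t.card * (CK * (ℓ : ℝ) ^ (-((n : ℝ) / 8)))) = u * CK := fun u => by
    rw [Real.rpow_neg l0.le]
    field_simp
  have w2 : ∀ (f : Finset (Fin H) → ℝ) (u : ℝ), 0 ≤ u →
      (∀ S, |f S| ≤ u / (ℓ : ℝ) ^ t.card * (CK * (ℓ : ℝ) ^ (-((n : ℝ) / 8)))) →
      |(ℓ : ℝ) ^ ((n : ℝ) / 8) * (ℓ : ℝ) ^ t.card * ∑ S, f S| ≤ 2 ^ H₀ * (u * CK) := by
    intro f u hu hf
    rw [mul_sum]
    refine (abs_sum_le_sum_abs _ _).trans ((sum_le_card_nsmul _ _ (u * CK) fun S _ => ?_).trans ?_)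
    · rw [abs_mul, abs_of_pos w0, ← w1]
      exact mul_le_mul_of_nonneg_left (hf S) w0.le
    · rw [nsmul_eq_mul]
      exact mul_le_mul_of_nonneg_right cS (by positivity)
  constructor
  · have := w2 _ _ (by positivity) fun S => (key S).1
    rw [sum_sub_distrib, ← mul_sum] at this
    refine le_trans (le_of_eq (congrArg _ ?_)) (this.trans ?_)
    · unfold mx mxU
      ring
    · calc _ = ε * (CK / (CK + 1)) := by field_simp
        _ ≤ ε := mul_le_of_le_one_right hε.le (div_le_one_of_le₀ (by linarith) (by linarith))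
  · exact w2 _ _ (abs_nonneg C) fun S => (key S).2.trans (by gcongr; exact le_abs_self C)

/-- The correlations of the set in terms of the nearest-neighbour model on the dug set. -/
theorem half (hK : KStmtW) (hS : SpStmt) {Q : Cls} {q : Par} {Zσ Zε : ℝ} {L t m : ℕ}
    (hL : 2 ≤ L) (hU : UnivU Q q Zσ Zε L m) (ht : 1 ≤ t) (x1 : 1 / 4 ≤ q.x) (x2 : q.x ≤ 1 / 2)
    (hq : q.Small 1) {J lam β : ℝ} (hr : Rel J lam β q) (N n H₀ Λ₁ k₀ : ℕ)
    {ε : ℝ} (hε : 0 < ε) : ∃ J₀ : ℕ, ∀ J' ≥ J₀, ∀ (M : ℕ) [NeZero M] (Λ P : Finset Site)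
      (fr : Bool) (T r H : ℕ) (x : Fin n → Site) (y : Fin m → Site) (j : Fin m → Fin 2)
      (a : Site) (hs : Fin H → Site), H ≤ H₀ → Rgh (regOf M (dig Λ P t) fr).In N r →
      (∀ B, Str (regOf M (dig Λ P t) fr).pw B (r - 1) →
        Q M ((regOf M (dig Λ P t) fr).pw * B) J') → Holes (dig Λ P t) T r a hs →
      (fr = false → Cn M (dig Λ P t) a hs) → Spins (dig Λ P t) r (Sum.elim x y) →
      (fr = true → H = 0 ∧ Even n) → 16 * sc L J' + 1 ≤ r → r ≤ T → T ≤ Λ₁ * sc L J' →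
      M = 64 * T → (∀ p ∈ P, zd p 0 ≤ T) →
      (∀ p ∈ P, ∀ p' ∈ P, p ≠ p' → r < zd p p') → P.card ≤ k₀ →
        (sc L J' : ℝ) ^ ((n : ℝ) / 8) * (sc L J' : ℝ) ^ m *
          |lcor (gibbs J lam q.V β (if fr then none else some fun _ => true) Λ) x y j -
            Zσ ^ n * Zε ^ m * UL.psi (mx par0 (regOf M (dig Λ P t) fr) a hs y j Fin.elim0 ∅)
              (fun k => mx par0 (regOf M (dig Λ P t) fr) a hs y j Fin.elim0 {k})
              (mx par0 (regOf M (dig Λ P t) fr) a hs y j x)| ≤ ε := by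
  obtain ⟨σ, γ, θ, hσ, hθ, hΔ, hM, hE⟩ := hU
  obtain ⟨B₁, c₁⟩ := core hK hL hM hE N n H₀ Λ₁
  obtain ⟨B₀, c₀⟩ := core hK hL hM hE N 0 H₀ Λ₁
  obtain ⟨ε', hε', hH⟩ := halfW hS q.R t n m k₀ (max B₁ B₀) Zσ Zε ht hθ hσ hε
  obtain ⟨J₁, c₁⟩ := c₁ ε' hε'
  obtain ⟨J₀, c₀⟩ := c₀ ε' hε'
  refine ⟨max (max J₀ J₁) (t + q.R + q.R), fun J' hJ' M _ Λ P fr T r H x y j a hs h0 hS hB h1 hc h2
    hfr r1 r2 r3 hMT p1 p2 p3 => ?_⟩
  have l1 : 8 * J' + 8 ≤ sc L J' := sc_ge hL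
  have l2 : t + q.R + q.R ≤ J' := le_of_max_le_right hJ'
  have hs0 : Spins (dig Λ P t) r (Sum.elim (Fin.elim0 : Fin 0 → Site) y) := by
    have := h2.comp (f := Sum.map (Fin.elim0 : Fin 0 → Fin n) id)
      (Function.Injective.sumMap (fun i => i.elim0) Function.injective_id)
    have e : x ∘ (Fin.elim0 : Fin 0 → Fin n) = Fin.elim0 := funext fun i => i.elim0
    rwa [Sum.elim_comp_map, e, Function.comp_id] at this
  obtain ⟨d1, d2, d3⟩ := hΔ M (regOf M (dig Λ P t) fr)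
  exact hH J lam β q γ hr hr.range x1 x2 hq M Λ P fr T r H a hs x y j (sc L J') h1 hc hfr p1
    (fun p hp p' hp' e => lt_of_le_of_lt (by omega) (p2 p hp p' hp' e)) p3 (by omega)
    (fun i => h2.ins (Sum.inl i) _ (by simp [zd_self]))
    (fun k => ⟨h2.ins (Sum.inr k) _ (by simp [zd_self]),
      h2.ins (Sum.inr k) _ ((zd_add_dir _ _).trans (by omega))⟩)
    (by exact_mod_cast (by omega : 0 < sc L J')) d1 d2 d3
    ((c₁ J' (le_of_max_le_right (le_of_max_le_left hJ')) M _ fr T r H x y j a hs h0 hS hB h1 h2 hfr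
      r1 r2 r3 hMT).monoB (le_max_left _ _))
    ((c₀ J' (le_of_max_le_left (le_of_max_le_left hJ')) M _ fr T r H Fin.elim0 y j a hs h0 hS hB h1
      hs0 (fun h => ⟨(hfr h).1, Even.zero⟩) r1 r2 r3 hMT).monoB (le_max_right _ _))

end FrU

end Vale.Agent.P144Z
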